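import Mathlib

namespace Vale.Agent.Results.P262.PrefixLower

open Finset

/-- Euclidean `d`-space. -/
abbrev E (d : ℕ) := EuclideanSpace ℝ (Fin d)

/-- `PrefixBound d C`: every finite sequence `v 0, …, v (N-1)` in the Euclidean unit ball of
`ℝ^d` admits signs for which all prefix sums have norm at most `C`
(that is, `σ(d) ≤ C` in the language of the problem). -/
def PrefixBound (d : ℕ) (C : ℝ) : Prop :=
  ∀ (N : ℕ) (v : ℕ → E d), (∀ i, i < N → ‖v i‖ ≤ 1) →
    ∃ ε : ℕ → ℝ, (∀ i, ε i = 1 ∨ ε i = -1) ∧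
      ∀ k, k ≤ N → ‖∑ i ∈ range k, ε i • v i‖ ≤ C

/-- Starting from the point `S`, every signing of the list `L` has a prefix
(possibly empty) at which the squared norm is at least `M`. -/
def Forces {d : ℕ} (M : ℝ) : List (E d) → E d → Prop
  | [], S => M ≤ ‖S‖ ^ 2
  | w :: L, S => M ≤ ‖S‖ ^ 2 ∨ (Forces M L (S + w) ∧ Forces M L (S - w))

lemma forces_of_le {d : ℕ} {M : ℝ} (L : List (E d)) {S : E d} (h : M ≤ ‖S‖ ^ 2) :
    Forces M L S := by
  cases L with
  | nil => exact h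
  | cons w L => exact Or.inl h

lemma forces_neg {d : ℕ} {M : ℝ} (L : List (E d)) : ∀ {S : E d}, Forces M L S → Forces M L (-S) := by
  induction L with
  | nil => intro S h; simpa [Forces] using h
  | cons w L ih =>
    intro S h
    rcases h with h | ⟨h1, h2⟩
    · left; simpa using h
    · right
      constructor
      · have := ih h2
        rwa [neg_sub, sub_eq_add_neg, add_comm] at this
      · have := ih h1
        rwa [neg_add, ← sub_eq_add_neg] at this

lemma forces_spec {d : ℕ} {M : ℝ} (L : List (E d)) :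
    ∀ {S : E d}, Forces M L S → ∀ ε : ℕ → ℝ, (∀ i, ε i = 1 ∨ ε i = -1) →
      ∃ k, k ≤ L.length ∧ M ≤ ‖S + ∑ i ∈ range k, ε i • L.getD i 0‖ ^ 2 := by
  induction L with
  | nil => intro S h ε _; exact ⟨0, le_refl _, by simpa [Forces] using h⟩
  | cons w L ih =>
    intro S h ε hε
    rcases h with h | ⟨h1, h2⟩
    · exact ⟨0, Nat.zero_le _, by simpa using h⟩
    · have hε' : ∀ i, ε (i + 1) = 1 ∨ ε (i + 1) = -1 := fun i => hε (i + 1)
      rcases hε 0 with h0 | h0
      · obtain ⟨k, hk, hM⟩ := ih h1 (fun i => ε (i + 1)) hε'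
        refine ⟨k + 1, by simpa using hk, ?_⟩
        rw [Finset.sum_range_succ']
        simp only [List.getD_cons_succ, List.getD_cons_zero, h0, one_smul]
        rwa [add_comm (∑ i ∈ range k, _) w, ← add_assoc]
      · obtain ⟨k, hk, hM⟩ := ih h2 (fun i => ε (i + 1)) hε'
        refine ⟨k + 1, by simpa using hk, ?_⟩
        rw [Finset.sum_range_succ']
        simp only [List.getD_cons_succ, List.getD_cons_zero, h0, neg_smul, one_smul]
        rwa [add_comm (∑ i ∈ range k, _) (-w), ← add_assoc, ← sub_eq_add_neg]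

lemma bound_of_forces {d : ℕ} {C M : ℝ} (hC : PrefixBound d C) (L : List (E d))
    (hL : ∀ w ∈ L, ‖w‖ ≤ 1) (hF : Forces M L 0) : M ≤ C ^ 2 := by
  obtain ⟨ε, hε, hb⟩ := hC L.length (fun i => L.getD i 0) (by
    intro i hi
    rw [List.getD_eq_getElem _ _ hi]
    exact hL _ (List.getElem_mem hi))
  obtain ⟨k, hk, hM⟩ := forces_spec L hF ε hε
  rw [zero_add] at hM
  have h1 := hb k hk
  have h0 : 0 ≤ ‖∑ i ∈ range k, ε i • L.getD i 0‖ := norm_nonneg _
  calc M ≤ _ := hM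
    _ ≤ C ^ 2 := by gcongr

/-- In the plane, a unit vector with a prescribed inner product against a given vector. -/
lemma exists_unit_inner (T : E 2) (c : ℝ) (hT : 0 < ‖T‖ ^ 2) (hc : c ^ 2 ≤ ‖T‖ ^ 2) :
    ∃ w : E 2, ‖w‖ = 1 ∧ inner ℝ T w = c := by
  set x := T 0 with hx
  set y := T 1 with hy
  have hr : ‖T‖ ^ 2 = x ^ 2 + y ^ 2 := by
    rw [EuclideanSpace.real_norm_sq_eq, Fin.sum_univ_two]
  set r := x ^ 2 + y ^ 2 with hrdef
  rw [hr] at hT hc
  set s := Real.sqrt (r - c ^ 2) with hs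
  have hs2 : s ^ 2 = r - c ^ 2 := Real.sq_sqrt (by linarith)
  refine ⟨!₂[(c * x - s * y) / r, (c * y + s * x) / r], ?_, ?_⟩
  · have h1 : ‖(!₂[(c * x - s * y) / r, (c * y + s * x) / r] : E 2)‖ ^ 2 = 1 := by
      rw [EuclideanSpace.real_norm_sq_eq, Fin.sum_univ_two]
      simp only [Matrix.cons_val_zero, Matrix.cons_val_one]
      have hne : r ≠ 0 := ne_of_gt hT
      field_simp
      have : (c * x - s * y) ^ 2 + (c * y + x * s) ^ 2 = (c ^ 2 + s ^ 2) * (x ^ 2 + y ^ 2) := by ring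
      rw [this, hs2]
      ring
    have h0 : 0 ≤ ‖(!₂[(c * x - s * y) / r, (c * y + s * x) / r] : E 2)‖ := norm_nonneg _
    nlinarith
  · rw [PiLp.inner_apply, Fin.sum_univ_two]
    simp only [Matrix.cons_val_zero, Matrix.cons_val_one]
    have hne : r ≠ 0 := ne_of_gt hT
    simp only [RCLike.inner_apply, conj_trivial]
    rw [← hx, ← hy]
    field_simp
    ring

/-- The planar gadget. -/
lemma gadget (b : ℝ) (hb : 1 / 4 ≤ b) : ∀ (j : ℕ) (T : E 2), ‖T‖ ^ 2 = b + (1 / 2) ^ j →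
    ∃ L : List (E 2), (∀ w ∈ L, ‖w‖ ≤ 1) ∧ Forces (b + 2) L T := by
  intro j
  induction j with
  | zero =>
    intro T hT
    rw [pow_zero] at hT
    obtain ⟨w, hw, hin⟩ := exists_unit_inner T 0 (by rw [hT]; linarith) (by rw [hT]; nlinarith)
    refine ⟨[w], by simp [hw], Or.inr ⟨?_, ?_⟩⟩
    · show b + 2 ≤ ‖T + w‖ ^ 2
      rw [norm_add_sq_real, hin, hw, hT]; linarith
    · show b + 2 ≤ ‖T - w‖ ^ 2
      rw [norm_sub_sq_real, hin, hw, hT]; linarith
  | succ j ih =>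
    intro T hT
    have hp : (0 : ℝ) < (1 / 2) ^ (j + 1) := by positivity
    have hp1 : ((1 : ℝ) / 2) ^ (j + 1) ≤ 1 := pow_le_one₀ (by norm_num) (by norm_num)
    obtain ⟨w, hw, hin⟩ := exists_unit_inner T ((1 - (1 / 2) ^ (j + 1)) / 2)
      (by rw [hT]; linarith) (by rw [hT]; nlinarith)
    have h2 : ‖T - w‖ ^ 2 = b + (1 / 2) ^ j := by
      rw [norm_sub_sq_real, hin, hw, hT, pow_succ]; ring
    obtain ⟨L, hL, hF⟩ := ih (T - w) h2
    refine ⟨w :: L, ?_, Or.inr ⟨forces_of_le L ?_, hF⟩⟩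
    · intro u hu
      rcases List.mem_cons.mp hu with rfl | hu
      · exact hw.le
      · exact hL u hu
    · rw [norm_add_sq_real, hin, hw, hT]; linarith

lemma plane_bound {C : ℝ} (hC : PrefixBound 2 C) : 3 ≤ C ^ 2 := by
  have key : ∀ n : ℕ, 1 ≤ n → 3 - (1 / 2 : ℝ) ^ n ≤ C ^ 2 := by
    intro n hn
    have hp1 : ((1 : ℝ) / 2) ^ n ≤ 1 / 2 := by
      calc ((1 : ℝ) / 2) ^ n ≤ (1 / 2) ^ 1 := pow_le_pow_of_le_one (by norm_num) (by norm_num) hn
        _ = 1 / 2 := by norm_num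
    set T : E 2 := EuclideanSpace.single 0 1 with hTdef
    have hT1 : ‖T‖ = 1 := by simp [hTdef]
    obtain ⟨L, hL, hF⟩ := gadget (1 - (1 / 2) ^ n) (by linarith) n T (by rw [hT1]; ring)
    have := bound_of_forces hC (T :: L) (by
      intro u hu
      rcases List.mem_cons.mp hu with rfl | hu
      · exact hT1.le
      · exact hL u hu) (M := 1 - (1 / 2) ^ n + 2) (Or.inr ⟨by simpa using hF, by
        simpa using forces_neg L hF⟩)
    linarith
  by_contra hlt
  rw [not_le] at hlt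
  obtain ⟨n, hn⟩ := exists_pow_lt_of_lt_one (show (0 : ℝ) < 3 - C ^ 2 by linarith)
    (show (1 / 2 : ℝ) < 1 by norm_num)
  have h1 := key (n + 1) (by omega)
  have h2 : ((1 : ℝ) / 2) ^ (n + 1) ≤ (1 / 2) ^ n :=
    pow_le_pow_of_le_one (by norm_num) (by norm_num) (by omega)
  linarith

/-- The isometric embedding of `ℝ^d` into `ℝ^(d+1)` as the last `d` coordinates. -/
def emb {d : ℕ} : E d →ₗ[ℝ] E (d + 1) where
  toFun x := WithLp.toLp 2 (Fin.cons (0 : ℝ) (fun i => x i))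
  map_add' x y := by
    ext i
    refine Fin.cases ?_ (fun j => ?_) i <;> simp
  map_smul' a x := by
    ext i
    refine Fin.cases ?_ (fun j => ?_) i <;> simp

lemma norm_sq_emb {d : ℕ} (a : ℝ) (y : E d) :
    ‖a • (EuclideanSpace.single 0 1 : E (d + 1)) + emb y‖ ^ 2 = a ^ 2 + ‖y‖ ^ 2 := by
  rw [EuclideanSpace.real_norm_sq_eq, EuclideanSpace.real_norm_sq_eq, Fin.sum_univ_succ]
  simp [emb]

lemma pad {d : ℕ} {C : ℝ} (hC : PrefixBound (d + 1) C) : PrefixBound d (Real.sqrt (C ^ 2 - 1)) := by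
  intro N v hv
  obtain ⟨ε, hε, hb⟩ := hC (N + 1)
    (fun i => Nat.casesOn i (EuclideanSpace.single 0 1) (fun j => emb (v j))) (by
      intro i hi
      cases i with
      | zero => simp
      | succ j =>
        have h1 := norm_sq_emb 0 (v j)
        have h2 := hv j (by omega)
        simp only [zero_smul, zero_add] at h1
        have h3 : ‖emb (v j)‖ ^ 2 ≤ 1 := by
          rw [h1]; nlinarith [norm_nonneg (v j)]
        nlinarith [norm_nonneg (emb (v j))])
  refine ⟨fun i => ε (i + 1), fun i => hε (i + 1), ?_⟩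
  intro k hk
  have h1 := hb (k + 1) (by omega)
  rw [Finset.sum_range_succ'] at h1
  simp only at h1
  have h2 : ∑ i ∈ range k, ε (i + 1) • emb (v i) = emb (∑ i ∈ range k, ε (i + 1) • v i) := by
    simp [map_sum]
  rw [h2] at h1
  have h1' : ‖ε 0 • (EuclideanSpace.single 0 1 : E (d + 1)) + emb (∑ i ∈ range k, ε (i + 1) • v i)‖
      ≤ C := by
    have e : ε 0 • (EuclideanSpace.single 0 1 : E (d + 1)) + emb (∑ i ∈ range k, ε (i + 1) • v i)
        = emb (∑ i ∈ range k, ε (i + 1) • v i) + ε 0 • (EuclideanSpace.single 0 1 : E (d + 1)) :=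
      add_comm _ _
    rw [e]; exact h1
  have h3 := norm_sq_emb (ε 0) (∑ i ∈ range k, ε (i + 1) • v i)
  have h4 : ε 0 ^ 2 = 1 := by rcases hε 0 with h | h <;> rw [h] <;> norm_num
  apply Real.le_sqrt_of_sq_le
  have h5 : ‖ε 0 • (EuclideanSpace.single 0 1 : E (d + 1)) + emb (∑ i ∈ range k, ε (i + 1) • v i)‖ ^ 2
      ≤ C ^ 2 := by
    gcongr
  linarith

lemma nonneg_of_bound {d : ℕ} {C : ℝ} (hC : PrefixBound d C) : 0 ≤ C := by
  obtain ⟨ε, _, hb⟩ := hC 0 (fun _ => 0) (by simp)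
  simpa using hb 0 le_rfl

lemma sq_bound : ∀ (m : ℕ) (C : ℝ), PrefixBound (m + 2) C → (m : ℝ) + 3 ≤ C ^ 2 := by
  intro m
  induction m with
  | zero => intro C hC; simpa using plane_bound hC
  | succ m ih =>
    intro C hC
    have h1 := ih _ (pad hC)
    have h2 : (0 : ℝ) ≤ (m : ℝ) + 3 := by positivity
    have h3 : 0 ≤ C ^ 2 - 1 := by
      by_contra hneg
      rw [not_le] at hneg
      rw [Real.sqrt_eq_zero_of_nonpos hneg.le] at h1
      norm_num at h1
      linarith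
    rw [Real.sq_sqrt h3] at h1
    push_cast
    linarith

/-- Integer squared norm. -/
def nsq (S : ℤ × ℤ × ℤ) : ℤ := S.1 ^ 2 + S.2.1 ^ 2 + S.2.2 ^ 2

/-- Computable integer version of `Forces` in dimension three. -/
def chk (Mz : ℤ) : List (ℤ × ℤ × ℤ) → ℤ × ℤ × ℤ → Bool
  | [], S => decide (Mz ≤ nsq S)
  | w :: L, S => decide (Mz ≤ nsq S) || (chk Mz L (S + w) && chk Mz L (S - w))

/-- The point of `ℝ^3` with coordinates `S / Q`. -/
noncomputable def toE (Q : ℝ) (S : ℤ × ℤ × ℤ) : E 3 := !₂[(S.1 : ℝ) / Q, (S.2.1 : ℝ) / Q, (S.2.2 : ℝ) / Q]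

lemma norm_toE (Q : ℝ) (S : ℤ × ℤ × ℤ) : ‖toE Q S‖ ^ 2 = (nsq S : ℝ) / Q ^ 2 := by
  rw [EuclideanSpace.real_norm_sq_eq, Fin.sum_univ_three]
  simp [toE, nsq]
  ring

lemma toE_add (Q : ℝ) (S w : ℤ × ℤ × ℤ) : toE Q (S + w) = toE Q S + toE Q w := by
  ext i
  fin_cases i <;> simp [toE, add_div]

lemma toE_sub (Q : ℝ) (S w : ℤ × ℤ × ℤ) : toE Q (S - w) = toE Q S - toE Q w := by
  ext i
  fin_cases i <;> simp [toE, sub_div]

lemma forces_of_chk (Q : ℝ) (hQ : 0 < Q) (Mz : ℤ) : ∀ (L : List (ℤ × ℤ × ℤ)) (S : ℤ × ℤ × ℤ),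
    chk Mz L S = true → Forces ((Mz : ℝ) / Q ^ 2) (L.map (toE Q)) (toE Q S) := by
  have hle : ∀ S : ℤ × ℤ × ℤ, Mz ≤ nsq S → (Mz : ℝ) / Q ^ 2 ≤ ‖toE Q S‖ ^ 2 := by
    intro S h
    rw [norm_toE]
    have : (Mz : ℝ) ≤ (nsq S : ℝ) := by exact_mod_cast h
    gcongr
  intro L
  induction L with
  | nil =>
    intro S h
    simp only [chk, decide_eq_true_eq] at h
    exact hle S h
  | cons w L ih =>
    intro S h
    simp only [chk, Bool.or_eq_true, decide_eq_true_eq, Bool.and_eq_true] at h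
    rcases h with h | ⟨h1, h2⟩
    · exact Or.inl (hle S h)
    · refine Or.inr ⟨?_, ?_⟩
      · rw [← toE_add]; exact ih _ h1
      · rw [← toE_sub]; exact ih _ h2

/-- Eleven integer vectors of norm at most `2000`. -/
def cert : List (ℤ × ℤ × ℤ) :=
  [(901, 927, -1526), (1264, 988, 1194), (1786, -895, -94), (-1517, -1046, -768),
   (739, 1477, 1127), (-1879, 339, 593), (-1457, 923, -1012), (-574, 1250, -1451),
   (1701, 629, 841), (-1382, 457, -1371), (-1329, -758, 1286)]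

lemma cert_norm : ∀ w ∈ cert, nsq w ≤ 2000 ^ 2 := by decide

lemma cert_chk : chk 16800000 cert (0, 0, 0) = true := by decide +kernel

lemma space_bound {C : ℝ} (hC : PrefixBound 3 C) : 21 / 5 ≤ C ^ 2 := by
  have hF := forces_of_chk 2000 (by norm_num) 16800000 cert (0, 0, 0) cert_chk
  have h0 : toE 2000 (0, 0, 0) = 0 := by
    ext i
    fin_cases i <;> simp [toE]
  rw [h0] at hF
  have := bound_of_forces hC (cert.map (toE 2000)) (by
    intro u hu
    obtain ⟨w, hw, rfl⟩ := List.mem_map.mp hu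
    have h1 := cert_norm w hw
    have h2 : ‖toE 2000 w‖ ^ 2 ≤ 1 := by
      rw [norm_toE]
      have : (nsq w : ℝ) ≤ 2000 ^ 2 := by exact_mod_cast h1
      rw [div_le_one (by norm_num)]
      exact this
    nlinarith [norm_nonneg (toE 2000 w)]) hF
  norm_num at this
  linarith

lemma sq_bound' : ∀ (m : ℕ) (C : ℝ), PrefixBound (m + 3) C → (m : ℝ) + 21 / 5 ≤ C ^ 2 := by
  intro m
  induction m with
  | zero => intro C hC; simpa using space_bound hC
  | succ m ih =>
    intro C hC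
    have h1 := ih _ (pad hC)
    have h2 : (0 : ℝ) ≤ (m : ℝ) + 21 / 5 := by positivity
    have h3 : 0 ≤ C ^ 2 - 1 := by
      by_contra hneg
      rw [not_le] at hneg
      rw [Real.sqrt_eq_zero_of_nonpos hneg.le] at h1
      norm_num at h1
      linarith
    rw [Real.sq_sqrt h3] at h1
    push_cast
    linarith

/-- Every admissible constant `C` for signed prefix sums in the Euclidean unit ball of `ℝ^d`
(that is, every `C ≥ σ(d)`) satisfies `C ≥ √(d+1)` when `d ≥ 2`, and `C ≥ √(d+6/5)` when `d ≥ 3`. -/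
theorem result :
    (∀ (d : ℕ) (C : ℝ), 2 ≤ d → PrefixBound d C → Real.sqrt ((d : ℝ) + 1) ≤ C) ∧
    (∀ (d : ℕ) (C : ℝ), 3 ≤ d → PrefixBound d C → Real.sqrt ((d : ℝ) + 6 / 5) ≤ C) := by
  constructor
  · intro d C hd hC
    obtain ⟨m, rfl⟩ := Nat.exists_eq_add_of_le' hd
    have h := sq_bound m C hC
    apply Real.sqrt_le_iff.mpr ⟨nonneg_of_bound hC, ?_⟩
    push_cast
    linarith
  · intro d C hd hC
    obtain ⟨m, rfl⟩ := Nat.exists_eq_add_of_le' hd
    have h := sq_bound' m C hC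
    apply Real.sqrt_le_iff.mpr ⟨nonneg_of_bound hC, ?_⟩
    push_cast
    linarith

end Vale.Agent.Results.P262.PrefixLower
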