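import Mathlib

namespace Vale.Agent.Results.P262.SqrtDPlusOne

open scoped BigOperators RealInnerProductSpace

section abstract

variable {E : Type*} [NormedAddCommGroup E] [InnerProductSpace ℝ E]

/-- signed sum of the first `k` vectors -/
def pre {N : ℕ} (v : Fin N → E) (ε : Fin N → ℝ) (k : ℕ) : E :=
  ∑ i : Fin N, if i.val < k then ε i • v i else 0

/-- starting from `x`, every signing of `v` has a prefix of squared norm at least `T` -/
def Forces (T : ℝ) (x : E) {N : ℕ} (v : Fin N → E) : Prop :=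
  ∀ ε : Fin N → ℝ, (∀ i, ε i = 1 ∨ ε i = -1) → ∃ k, k ≤ N ∧ T ≤ ‖x + pre v ε k‖ ^ 2

lemma pre_zero {N : ℕ} (v : Fin N → E) (ε : Fin N → ℝ) : pre v ε 0 = 0 := by
  simp [pre]

lemma pre_cons {N : ℕ} (v0 : E) (v : Fin N → E) (ε : Fin (N + 1) → ℝ) (k : ℕ) :
    pre (Fin.cons v0 v : Fin (N + 1) → E) ε (k + 1) = ε 0 • v0 + pre v (fun i => ε i.succ) k := by
  simp [pre, Fin.sum_univ_succ]

lemma forces_of_le {T : ℝ} {x : E} {N : ℕ} (v : Fin N → E) (h : T ≤ ‖x‖ ^ 2) : Forces T x v := by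
  intro ε _
  exact ⟨0, Nat.zero_le _, by simpa [pre_zero] using h⟩

lemma forces_cons {T : ℝ} {x v0 : E} {N : ℕ} {v : Fin N → E}
    (h1 : Forces T (x + v0) v) (h2 : Forces T (x - v0) v) :
    Forces T x (Fin.cons v0 v : Fin (N + 1) → E) := by
  intro ε hε
  rcases hε 0 with h0 | h0
  · obtain ⟨k, hk, hT⟩ := h1 (fun i => ε i.succ) (fun i => hε _)
    refine ⟨k + 1, by omega, ?_⟩
    rw [pre_cons, h0, one_smul, ← add_assoc]
    exact hT
  · obtain ⟨k, hk, hT⟩ := h2 (fun i => ε i.succ) (fun i => hε _)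
    refine ⟨k + 1, by omega, ?_⟩
    rw [pre_cons, h0, neg_one_smul, ← add_assoc, ← sub_eq_add_neg]
    exact hT

lemma pre_neg {N : ℕ} (v : Fin N → E) (ε : Fin N → ℝ) (k : ℕ) :
    pre v (fun i => - ε i) k = - pre v ε k := by
  simp only [pre, ← Finset.sum_neg_distrib]
  refine Finset.sum_congr rfl (fun i _ => ?_)
  split_ifs <;> simp

lemma forces_neg {T : ℝ} {x : E} {N : ℕ} {v : Fin N → E} (h : Forces T x v) :
    Forces T (-x) v := by
  intro ε hε
  obtain ⟨k, hk, hT⟩ := h (fun i => - ε i) (fun i => by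
    rcases hε i with h | h <;> simp [h])
  refine ⟨k, hk, ?_⟩
  rw [pre_neg] at hT
  have : -x + pre v ε k = -(x + -pre v ε k) := by abel
  rw [this, norm_neg]
  exact hT

lemma inner_pre_eq_zero {e : E} {N : ℕ} {v : Fin N → E} (hv : ∀ i, ⟪e, v i⟫ = 0)
    (ε : Fin N → ℝ) (k : ℕ) : ⟪e, pre v ε k⟫ = 0 := by
  simp only [pre, inner_sum]
  refine Finset.sum_eq_zero (fun i _ => ?_)
  split_ifs <;> simp [inner_smul_right, hv i]

lemma forces_add_orth {T : ℝ} {x e : E} {N : ℕ} {v : Fin N → E} (h : Forces T x v)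
    (he : ‖e‖ = 1) (hx : ⟪e, x⟫ = 0) (hv : ∀ i, ⟪e, v i⟫ = 0) :
    Forces (T + 1) (x + e) v := by
  intro ε hε
  obtain ⟨k, hk, hT⟩ := h ε hε
  refine ⟨k, hk, ?_⟩
  have h0 : ⟪e, x + pre v ε k⟫ = 0 := by
    rw [inner_add_right, hx, inner_pre_eq_zero hv, add_zero]
  have : x + e + pre v ε k = e + (x + pre v ε k) := by abel
  rw [this, norm_add_sq_real, h0, he]
  linarith

lemma forces_cons_orth {T : ℝ} {e : E} {N : ℕ} {v : Fin N → E} (h : Forces T (0 : E) v)
    (he : ‖e‖ = 1) (hv : ∀ i, ⟪e, v i⟫ = 0) :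
    Forces (T + 1) (0 : E) (Fin.cons e v : Fin (N + 1) → E) := by
  have h1 : Forces (T + 1) ((0 : E) + e) v := forces_add_orth h he (by simp) hv
  refine forces_cons h1 ?_
  have h2 := forces_neg h1
  simpa using h2

/-- the doubling strategy inside a subspace in which every vector has a unit normal -/
lemma kill (W : Submodule ℝ E) (hW : ∀ x ∈ W, ∃ u ∈ W, ‖u‖ = 1 ∧ ⟪x, u⟫ = 0) (T : ℝ) :
    ∀ n : ℕ, ∀ x ∈ W, 1 ≤ ‖x‖ ^ 2 → 1 ≤ (‖x‖ ^ 2 - (T - 2)) * 2 ^ n →
      ∃ (N : ℕ) (v : Fin N → E), (∀ i, v i ∈ W ∧ ‖v i‖ ≤ 1) ∧ Forces T x v := by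
  have base : ∀ x ∈ W, T - 1 ≤ ‖x‖ ^ 2 →
      ∃ (N : ℕ) (v : Fin N → E), (∀ i, v i ∈ W ∧ ‖v i‖ ≤ 1) ∧ Forces T x v := by
    intro x hx hT
    obtain ⟨u, huW, hu1, hxu⟩ := hW x hx
    refine ⟨1, Fin.cons u (Fin.elim0 : Fin 0 → E), ?_, ?_⟩
    · intro i
      refine Fin.cases ?_ (fun j => j.elim0) i
      simp [huW, hu1]
    · refine forces_cons (forces_of_le _ ?_) (forces_of_le _ ?_)
      · rw [norm_add_sq_real, hxu, hu1]; linarith
      · rw [norm_sub_sq_real, hxu, hu1]; linarith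
  intro n
  induction n with
  | zero =>
    intro x hx _ h
    exact base x hx (by simpa using (by linarith : T - 1 ≤ ‖x‖ ^ 2))
  | succ n ih =>
    intro x hx h1 h
    by_cases hT : T - 1 ≤ ‖x‖ ^ 2
    · exact base x hx hT
    · have hT := not_le.mp hT
      obtain ⟨u, huW, hu1, hxu⟩ := hW x hx
      set a : ℝ := ‖x‖ ^ 2 with ha
      have hapos : 0 < a := by linarith
      have hgt : 0 < a - (T - 2) := by
        by_contra hcon
        have hcon := not_lt.mp hcon
        have : (a - (T - 2)) * 2 ^ (n + 1) ≤ 0 :=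
          mul_nonpos_of_nonpos_of_nonneg hcon (by positivity)
        linarith
      set c : ℝ := (T - 1 - a) / 2 with hc
      have hc0 : 0 < c := by rw [hc]; linarith
      have hc1 : c < 1 / 2 := by rw [hc]; linarith
      have hca : c ^ 2 / a ≤ 1 := by
        rw [div_le_one hapos]
        nlinarith
      set s : ℝ := Real.sqrt (1 - c ^ 2 / a) with hs
      have hs2 : s ^ 2 = 1 - c ^ 2 / a := Real.sq_sqrt (by linarith)
      set v0 : E := (c / a) • x + s • u with hv0
      have hv0W : v0 ∈ W := W.add_mem (W.smul_mem _ hx) (W.smul_mem _ huW)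
      have hxx : ⟪x, x⟫ = a := by rw [real_inner_self_eq_norm_sq]
      have huu : ⟪u, u⟫ = 1 := by rw [real_inner_self_eq_norm_sq, hu1]; norm_num
      have hux : ⟪u, x⟫ = 0 := by rw [real_inner_comm]; exact hxu
      have hxv : ⟪x, v0⟫ = c := by
        rw [hv0, inner_add_right, inner_smul_right, inner_smul_right, hxx, hxu]
        field_simp
        ring
      have hvv : ‖v0‖ ^ 2 = 1 := by
        rw [← real_inner_self_eq_norm_sq, hv0]
        simp only [inner_add_left, inner_add_right, inner_smul_left, inner_smul_right, hxx, huu,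
          hxu, hux]
        simp only [RCLike.conj_to_real]
        have : c / a * (c / a * a) = c ^ 2 / a := by field_simp
        nlinarith [this, hs2]
      have hv1 : ‖v0‖ ≤ 1 := by
        have : ‖v0‖ ^ 2 ≤ 1 ^ 2 := by rw [hvv]; norm_num
        exact abs_le_of_sq_le_sq' this (by norm_num) |>.2 |> fun h => by
          simpa [abs_of_nonneg (norm_nonneg v0)] using h
      have hplus : T ≤ ‖x + v0‖ ^ 2 := by
        rw [norm_add_sq_real, hxv, hvv, ← ha, hc]; linarith
      have hminus : ‖x - v0‖ ^ 2 = 2 * a + 2 - T := by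
        rw [norm_sub_sq_real, hxv, hvv, ← ha, hc]; ring
      obtain ⟨N, v, hv, hF⟩ := ih (x - v0) (W.sub_mem hx hv0W)
        (by rw [hminus]; linarith)
        (by
          rw [hminus]
          have : (2 * a + 2 - T - (T - 2)) * 2 ^ n = (a - (T - 2)) * 2 ^ (n + 1) := by ring
          rw [this]; exact h)
      refine ⟨N + 1, Fin.cons v0 v, ?_, forces_cons (forces_of_le _ hplus) hF⟩
      intro i
      refine Fin.cases ?_ (fun j => ?_) i
      · simpa using ⟨hv0W, hv1⟩
      · simpa using hv j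

end abstract

section concrete

variable {d : ℕ}

/-- vectors supported on the first `m` coordinates -/
def Wsub (d m : ℕ) : Submodule ℝ (EuclideanSpace ℝ (Fin d)) where
  carrier := {y | ∀ j : Fin d, m ≤ j.val → y j = 0}
  add_mem' := by
    intro a b ha hb j hj
    simp [ha j hj, hb j hj]
  zero_mem' := by
    intro j _
    simp
  smul_mem' := by
    intro c a ha j hj
    simp [ha j hj]

lemma mem_Wsub {m : ℕ} {y : EuclideanSpace ℝ (Fin d)} :
    y ∈ Wsub d m ↔ ∀ j : Fin d, m ≤ j.val → y j = 0 := Iff.rfl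

lemma plane_normal (hd : 2 ≤ d) (x : EuclideanSpace ℝ (Fin d)) (hx : x ∈ Wsub d 2) :
    ∃ u ∈ Wsub d 2, ‖u‖ = 1 ∧ ⟪x, u⟫ = 0 := by
  set i0 : Fin d := ⟨0, by omega⟩ with hi0
  set i1 : Fin d := ⟨1, by omega⟩ with hi1
  have h01 : i0 ≠ i1 := by simp [hi0, hi1, Fin.ext_iff]
  have hxe : x = EuclideanSpace.single i0 (x i0) + EuclideanSpace.single i1 (x i1) := by
    ext j
    by_cases h0 : j = i0
    · subst h0; simp [h01]
    · by_cases h1 : j = i1
      · subst h1; simp [h01.symm]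
      · have : 2 ≤ j.val := by
          have a0 : j.val ≠ 0 := fun h => h0 (Fin.ext h)
          have a1 : j.val ≠ 1 := fun h => h1 (Fin.ext h)
          omega
        simp [h0, h1, mem_Wsub.mp hx j this]
  have hsingle : ∀ (i : Fin d) (c : ℝ), i.val < 2 → EuclideanSpace.single i c ∈ Wsub d 2 := by
    intro i c hi j hj
    have : j ≠ i := fun h => by subst h; omega
    simp [this]
  by_cases hx0 : x = 0
  · refine ⟨EuclideanSpace.single i0 1, hsingle _ _ (by simp [hi0]), by simp, by simp [hx0]⟩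
  · set w : EuclideanSpace ℝ (Fin d) :=
      EuclideanSpace.single i0 (-(x i1)) + EuclideanSpace.single i1 (x i0) with hw
    have hwW : w ∈ Wsub d 2 :=
      (Wsub d 2).add_mem (hsingle _ _ (by simp [hi0])) (hsingle _ _ (by simp [hi1]))
    have hxw : ⟪x, w⟫ = 0 := by
      rw [hw, inner_add_right, EuclideanSpace.inner_single_right, EuclideanSpace.inner_single_right]
      simp
      ring
    have hnx : ‖x‖ ^ 2 = x i0 ^ 2 + x i1 ^ 2 := by
      rw [← real_inner_self_eq_norm_sq]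
      conv_lhs => rw [hxe]
      simp only [inner_add_left, inner_add_right, EuclideanSpace.inner_single_right]
      simp [h01, h01.symm]
      ring
    have hnw : ‖w‖ ^ 2 = x i0 ^ 2 + x i1 ^ 2 := by
      rw [← real_inner_self_eq_norm_sq, hw]
      simp only [inner_add_left, inner_add_right, EuclideanSpace.inner_single_right]
      simp [h01, h01.symm]
      ring
    have hwx : ‖w‖ = ‖x‖ := by
      have : ‖w‖ ^ 2 = ‖x‖ ^ 2 := by rw [hnx, hnw]
      exact (sq_eq_sq₀ (norm_nonneg _) (norm_nonneg _)).mp this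
    have hxpos : 0 < ‖x‖ := norm_pos_iff.mpr hx0
    refine ⟨(1 / ‖x‖) • w, (Wsub d 2).smul_mem _ hwW, ?_, ?_⟩
    · rw [norm_smul, hwx, Real.norm_of_nonneg (by positivity)]
      field_simp
    · rw [inner_smul_right, hxw, mul_zero]

lemma claimC (hd : 2 ≤ d) : ∀ m : ℕ, 2 ≤ m → m ≤ d → ∀ T : ℝ, T < (m : ℝ) + 1 →
    ∃ (N : ℕ) (v : Fin N → EuclideanSpace ℝ (Fin d)),
      (∀ i, v i ∈ Wsub d m ∧ ‖v i‖ ≤ 1) ∧ Forces T (0 : EuclideanSpace ℝ (Fin d)) v := by
  intro m hm
  induction m, hm using Nat.le_induction with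
  | base =>
    intro _ T hT
    set e0 : EuclideanSpace ℝ (Fin d) := EuclideanSpace.single ⟨0, by omega⟩ 1 with he0
    have he0W : e0 ∈ Wsub d 2 := by
      intro j hj
      have : j ≠ ⟨0, by omega⟩ := fun h => by
        have h' := congrArg Fin.val h
        simp at h'
        omega
      simp [he0, this]
    have he0n : ‖e0‖ = 1 := by simp [he0]
    have hpos : 0 < 3 - T := by push_cast at hT; linarith
    obtain ⟨n, hn⟩ := pow_unbounded_of_one_lt (1 / (3 - T)) (by norm_num : (1 : ℝ) < 2)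
    obtain ⟨N, v, hv, hF⟩ := kill (Wsub d 2) (plane_normal hd) T n e0 he0W (by simp [he0n])
      (by
        rw [he0n]
        have : 1 / (3 - T) * (3 - T) = 1 := by field_simp
        have h2 : 1 / (3 - T) * (3 - T) < 2 ^ n * (3 - T) := mul_lt_mul_of_pos_right hn hpos
        nlinarith)
    refine ⟨N + 1, Fin.cons e0 v, ?_, ?_⟩
    · intro i
      refine Fin.cases ?_ (fun j => ?_) i
      · simpa using ⟨he0W, he0n.le⟩
      · simpa using hv j
    · refine forces_cons (by simpa using hF) ?_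
      have := forces_neg hF
      simpa using this
  | succ m hm ih =>
    intro hmd T hT
    obtain ⟨N, v, hv, hF⟩ := ih (by omega) (T - 1) (by push_cast at hT; linarith)
    set e : EuclideanSpace ℝ (Fin d) := EuclideanSpace.single ⟨m, by omega⟩ 1 with he
    have hen : ‖e‖ = 1 := by simp [he]
    have heW : e ∈ Wsub d (m + 1) := by
      intro j hj
      have : j ≠ ⟨m, by omega⟩ := fun h => by
        have h' := congrArg Fin.val h
        simp at h'
        omega
      simp [he, this]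
    have hmono : ∀ y ∈ Wsub d m, y ∈ Wsub d (m + 1) := fun y hy j hj => hy j (by omega)
    have horth : ∀ i, ⟪e, v i⟫ = 0 := by
      intro i
      rw [he, EuclideanSpace.inner_single_left]
      simp [(hv i).1 ⟨m, by omega⟩ (le_refl _)]
    refine ⟨N + 1, Fin.cons e v, ?_, ?_⟩
    · intro i
      refine Fin.cases ?_ (fun j => ?_) i
      · simpa using ⟨heW, hen.le⟩
      · simpa using ⟨hmono _ (hv j).1, (hv j).2⟩
    · have := forces_cons_orth hF hen horth
      simpa using this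

end concrete

/-- For every `d ≥ 2` and every `B < √(d+1)` there is a finite sequence in the Euclidean unit ball
of `ℝ^d` such that every signing has a prefix sum of norm larger than `B`. -/
theorem result (d : ℕ) (hd : 2 ≤ d) (B : ℝ) (hB : B < Real.sqrt ((d : ℝ) + 1)) :
    ∃ (N : ℕ) (v : Fin N → EuclideanSpace ℝ (Fin d)), (∀ i, ‖v i‖ ≤ 1) ∧
      ∀ ε : Fin N → ℝ, (∀ i, ε i = 1 ∨ ε i = -1) →
        ∃ k : ℕ, k ≤ N ∧
          B < ‖∑ i ∈ Finset.univ.filter (fun i : Fin N => i.val < k), ε i • v i‖ := by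
  set B' : ℝ := max B 0 with hB'
  have hB'0 : 0 ≤ B' := le_max_right _ _
  have hB'lt : B' < Real.sqrt ((d : ℝ) + 1) := max_lt hB (Real.sqrt_pos.mpr (by positivity))
  have hsq : B' ^ 2 < (d : ℝ) + 1 := by
    have := (Real.lt_sqrt hB'0).mp hB'lt
    exact this
  obtain ⟨N, v, hv, hF⟩ := claimC hd d hd le_rfl ((B' ^ 2 + ((d : ℝ) + 1)) / 2) (by linarith)
  refine ⟨N, v, fun i => (hv i).2, ?_⟩
  intro ε hε
  obtain ⟨k, hk, hT⟩ := hF ε hε
  refine ⟨k, hk, ?_⟩
  have hpre : pre v ε k = ∑ i ∈ Finset.univ.filter (fun i : Fin N => i.val < k), ε i • v i := by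
    simp [pre, Finset.sum_filter]
  rw [zero_add, hpre] at hT
  have h2 : B' ^ 2 < ‖∑ i ∈ Finset.univ.filter (fun i : Fin N => i.val < k), ε i • v i‖ ^ 2 := by
    linarith
  have h3 := lt_of_pow_lt_pow_left₀ 2 (norm_nonneg _) h2
  exact lt_of_le_of_lt (le_max_left _ _) h3

end Vale.Agent.Results.P262.SqrtDPlusOne
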